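import Mathlib

/-!
# P214, block COMP: counting the charges

Classes `(i, k, l)`: event level `i`, `k = ⌊L⌋`, `l < D k` the second scale, window
`[i, i + D k)`.  Each level is charged at most `A D² 2 / k₀` in total if the class `(i, k, l)`
charges `A / k ^ 4`.
-/

open Set Filter Topology
open scoped ENNReal

set_option linter.all false

namespace Vale.Agent.P214.COMP

/-- `∑_{k ≥ k₀} 1 / k² ≤ 2 / k₀` -/
lemma tsum_inv_sq (k₀ : ℕ) (hk₀ : 1 ≤ k₀) :
    ∑' k : ℕ, (if k₀ ≤ k then ENNReal.ofReal (((k : ℝ) ^ 2)⁻¹) else 0)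
      ≤ ENNReal.ofReal (2 / k₀) := by
  refine ENNReal.tsum_le_of_sum_range_le fun n => ?_
  rw [← Finset.sum_filter, ← ENNReal.ofReal_sum_of_nonneg fun k _ => by positivity]
  apply ENNReal.ofReal_le_ofReal
  have h1 : (Finset.range n).filter (fun k => k₀ ≤ k) = Finset.Ioo (k₀ - 1) n := by
    ext k
    simp only [Finset.mem_filter, Finset.mem_range, Finset.mem_Ioo]
    omega
  rw [h1]
  have h2 := sum_Ioo_inv_sq_le (α := ℝ) (k₀ - 1) n
  have h3 : ((k₀ - 1 : ℕ) : ℝ) + 1 = k₀ := by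
    have : k₀ - 1 + 1 = k₀ := by omega
    exact_mod_cast this
  rwa [h3] at h2

lemma tsum_window (j n : ℕ) (c : ℝ≥0∞) :
    ∑' i : ℕ, (if i ≤ j ∧ j < i + n then c else 0) ≤ n * c := by
  rw [tsum_eq_sum (s := Finset.Icc (j + 1 - n) j)]
  · calc ∑ i ∈ Finset.Icc (j + 1 - n) j, (if i ≤ j ∧ j < i + n then c else 0)
        ≤ ∑ i ∈ Finset.Icc (j + 1 - n) j, c := Finset.sum_le_sum fun i _ => by
          split_ifs
          · exact le_rfl
          · exact zero_le
      _ = ((Finset.Icc (j + 1 - n) j).card : ℝ≥0∞) * c := by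
          rw [Finset.sum_const, nsmul_eq_mul]
      _ ≤ n * c := by
          gcongr
          rw [Nat.card_Icc]
          omega
  · intro i hi
    rw [Finset.mem_Icc] at hi
    rw [if_neg]
    omega

lemma tsum_lt (n : ℕ) (c : ℝ≥0∞) : ∑' l : ℕ, (if l < n then c else 0) = n * c := by
  rw [tsum_eq_sum (s := Finset.range n)]
  · rw [Finset.sum_congr rfl fun l hl => if_pos (Finset.mem_range.1 hl), Finset.sum_const,
      nsmul_eq_mul, Finset.card_range]
  · intro l hl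
    rw [Finset.mem_range] at hl
    rw [if_neg hl]

/-- **The charges to one level.** -/
theorem charge_sum (D k₀ : ℕ) (hk₀ : 1 ≤ k₀) {A : ℝ} (hA : 0 ≤ A) (j : ℕ) :
    ∑' a : ℕ × ℕ × ℕ, (if a.1 ≤ j ∧ j < a.1 + D * a.2.1 then
        (if k₀ ≤ a.2.1 ∧ a.2.2 < D * a.2.1 then ENNReal.ofReal (A / (a.2.1 : ℝ) ^ 4) else 0)
      else 0) ≤ ENNReal.ofReal (A * D ^ 2 * (2 / k₀)) := by
  rw [ENNReal.tsum_prod (f := fun i (b : ℕ × ℕ) => (if i ≤ j ∧ j < i + D * b.1 then
        (if k₀ ≤ b.1 ∧ b.2 < D * b.1 then ENNReal.ofReal (A / (b.1 : ℝ) ^ 4) else 0)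
      else 0))]
  have h0 : ∀ i : ℕ, ∑' b : ℕ × ℕ, (if i ≤ j ∧ j < i + D * b.1 then
        (if k₀ ≤ b.1 ∧ b.2 < D * b.1 then ENNReal.ofReal (A / (b.1 : ℝ) ^ 4) else 0) else 0)
      = ∑' k : ℕ, (if i ≤ j ∧ j < i + D * k then
          (if k₀ ≤ k then (D * k : ℕ) * ENNReal.ofReal (A / (k : ℝ) ^ 4) else 0) else 0) := by
    intro i
    rw [ENNReal.tsum_prod (f := fun k l => (if i ≤ j ∧ j < i + D * k then
        (if k₀ ≤ k ∧ l < D * k then ENNReal.ofReal (A / (k : ℝ) ^ 4) else 0) else 0))]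
    refine tsum_congr fun k => ?_
    by_cases h1 : i ≤ j ∧ j < i + D * k
    · simp only [h1, and_self, if_true]
      by_cases h2 : k₀ ≤ k
      · simp only [h2, true_and, if_true]
        rw [tsum_lt]
      · simp [h2]
    · simp only [h1, if_false, tsum_zero]
  simp_rw [h0]
  rw [ENNReal.tsum_comm]
  have h1 : ∀ k : ℕ, ∑' i : ℕ, (if i ≤ j ∧ j < i + D * k then
          (if k₀ ≤ k then (D * k : ℕ) * ENNReal.ofReal (A / (k : ℝ) ^ 4) else 0) else 0)
      ≤ ENNReal.ofReal (A * D ^ 2) * (if k₀ ≤ k then ENNReal.ofReal (((k : ℝ) ^ 2)⁻¹) else 0) := by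
    intro k
    refine (tsum_window j (D * k) _).trans ?_
    by_cases h2 : k₀ ≤ k
    · rw [if_pos h2, if_pos h2, ← ENNReal.ofReal_mul (by positivity)]
      have hk : (0 : ℝ) < k := by exact_mod_cast (by omega : 0 < k)
      rw [← ENNReal.ofReal_natCast, ← ENNReal.ofReal_mul (by positivity),
        ← ENNReal.ofReal_mul (by positivity)]
      apply ENNReal.ofReal_le_ofReal
      push_cast
      apply le_of_eq
      field_simp
    · rw [if_neg h2, if_neg h2]; simp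
  refine (ENNReal.tsum_le_tsum h1).trans ?_
  rw [ENNReal.tsum_mul_left, ENNReal.ofReal_mul (p := A * (D : ℝ) ^ 2) (by positivity)]
  exact mul_le_mul' le_rfl (tsum_inv_sq k₀ hk₀)

end Vale.Agent.P214.COMP
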