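import Vale.Agent.P214.COMP.Main
import Vale.Agent.P214.EX.Cont

/-!
# P214, block COMP: the exhaustion supplies the gap sets

`ExOut.of_total`: the packaged exhaustion (EX/Total) gives an `ExOut`.
`mem_gap`: a point with total negativity `≥ 16 B + 2` in the window `[i, i + d)` belongs to
`Gap ρ N i d (1 / (4 d ^ 4))`.  `mem_gap_integral`: the same with the integral over all radii.
-/

open MeasureTheory Set Filter Topology Metric

set_option linter.all false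

namespace Vale.Agent.P214.COMP

variable {E : Type*} [NormedAddCommGroup E] [NormedSpace ℝ E] [FiniteDimensional ℝ E]
  [MeasurableSpace E] [BorelSpace E]

open Vale.Agent.P214.EX

/-- the steps of the weak classes -/
lemma sum_st_cut_le (n : ℕ) {θ : ℝ} (hθ : 0 < θ) :
    ∑ q ∈ (Finset.range n).filter (fun q => wt q < θ ^ 4), st q ≤ 2 * θ := by
  classical
  set S := (Finset.range n).filter (fun q => wt q < θ ^ 4) with hS
  have hwt : ∀ q, wt q = st q ^ 4 := by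
    intro q
    unfold wt st
    rw [← pow_mul, mul_comm, pow_mul]; norm_num
  have hmem : ∀ q ∈ S, st q < θ := by
    intro q hq
    have h1 := (Finset.mem_filter.1 hq).2
    rw [hwt] at h1
    exact lt_of_pow_lt_pow_left₀ 4 hθ.le h1
  rcases S.eq_empty_or_nonempty with he | hne
  · rw [he]; simp; exact hθ.le
  · set q₀ := S.min' hne with hq₀
    have h1 : ∀ q ∈ S, q₀ ≤ q := fun q hq => Finset.min'_le _ _ hq
    have h2 : ∑ q ∈ S, st q ≤ st q₀ * ∑ q ∈ S.image (fun q => q - q₀), st q := by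
      rw [Finset.sum_image]
      · rw [Finset.mul_sum]
        refine Finset.sum_le_sum fun q hq => le_of_eq ?_
        unfold st
        rw [← pow_add]
        congr 1
        have := h1 q hq
        omega
      · intro a ha b hb hab
        have := h1 a ha
        have := h1 b hb
        simp only at hab
        omega
    have h3 := sum_st_le (S.image (fun q => q - q₀))
    have h4 := hmem q₀ (Finset.min'_mem _ _)
    have h5 := st_pos q₀
    calc ∑ q ∈ S, st q ≤ st q₀ * ∑ q ∈ S.image (fun q => q - q₀), st q := h2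
      _ ≤ st q₀ * 2 := by gcongr
      _ ≤ 2 * θ := by linarith

section

variable {η : E → ℝ} {K c₀ κ : ℝ} {M : ℕ} {D Ω : Set E} {adm : ℕ → Set E} {t₀ : ℝ} {φ : E → ℝ}
  {lam₁ lam₂ ν : Measure E} {ρ N : ℕ → E → ℝ}

lemma ExOut.of_total (h : Total η c₀ κ M D Ω adm t₀ φ lam₁ lam₂ ν ρ N) (ht : 0 < t₀) :
    ExOut Ω t₀ ρ N where
  ht := ht
  contρ i := (h.good i).cont
  contN i := (h.step i).cont
  ρ0 i := (h.good i).nonneg
  N0 i := (h.step i).nonneg
  anti i := (h.step i).le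
  loglip i := (h.good i).loglip

/-- the total inequality at a finite level -/
lemma total_ineq (h : Total η c₀ κ M D Ω adm t₀ φ lam₁ lam₂ ν ρ N) (J : ℕ) :
    Lam lam₁ lam₂ (ρ 0) + ∑ i ∈ Finset.range J, ∫ x, N i x ∂ν ≤ Lam lam₁ lam₂ (ρ J) := by
  induction J with
  | zero => simp
  | succ J ih =>
    rw [Finset.sum_range_succ]
    have := (h.step J).ineq
    linarith

/-- a drop by a factor two over a window of `d` levels costs negativity `≥ θ⁴ / 4` -/
lemma gap_of_drop (h : Total η c₀ κ M D Ω adm t₀ φ lam₁ lam₂ ν ρ N) (hκ0 : 0 < κ) {x : E}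
    {i d : ℕ} {θ : ℝ} (hθ : 0 < θ) (hd : 8 * M * κ * θ * d ≤ 1)
    (hdrop : ρ (i + d) x ≤ ρ i x / 2) : x ∈ Gap ρ N i d (θ ^ 4 / 4) := by
  have hanti : ∀ j, i ≤ j → ρ j x ≤ ρ i x := fun j hj => by
    induction j, hj using Nat.le_induction with
    | base => exact le_rfl
    | succ j _ ih => exact ((h.step j).le x).trans ih
  have h0 := (h.good i).nonneg x
  have hstep : ∀ j ∈ Finset.Ico i (i + d),
      θ ^ 4 * (ρ j x - ρ (j + 1) x - 2 * M * κ * θ * ρ i x) ≤ N j x := by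
    intro j hj
    refine le_trans ?_ ((h.step j).lower_cut (θ ^ 4) (by positivity) x)
    refine mul_le_mul_of_nonneg_left ?_ (by positivity)
    have h1 : ∑ q ∈ (Finset.range (j + 1)).filter (fun q => wt q < θ ^ 4), κ * st q
        ≤ κ * (2 * θ) := by
      rw [← Finset.mul_sum]
      exact mul_le_mul_of_nonneg_left (sum_st_cut_le _ hθ) hκ0.le
    have h2 := hanti j (Finset.mem_Ico.1 hj).1
    have h3 := (h.good j).nonneg x
    have h4 : (M : ℝ) * (∑ q ∈ (Finset.range (j + 1)).filter (fun q => wt q < θ ^ 4), κ * st q)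
        * ρ j x ≤ M * (κ * (2 * θ)) * ρ i x := by
      gcongr
    have h5 : (M : ℝ) * (κ * (2 * θ)) * ρ i x = 2 * M * κ * θ * ρ i x := by ring
    linarith
  have hsum : ∀ d : ℕ, ∑ j ∈ Finset.Ico i (i + d),
      θ ^ 4 * (ρ j x - ρ (j + 1) x - 2 * M * κ * θ * ρ i x)
      = θ ^ 4 * (ρ i x - ρ (i + d) x - d * (2 * M * κ * θ * ρ i x)) := by
    intro d
    induction d with
    | zero => simp
    | succ d ih =>
      rw [← add_assoc, Finset.sum_Ico_succ_top (by omega), ih]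
      push_cast
      ring
  show θ ^ 4 / 4 * ρ i x ≤ ∑ j ∈ Finset.Ico i (i + d), N j x
  refine le_trans ?_ (Finset.sum_le_sum hstep)
  rw [hsum d]
  have h6 : (d : ℝ) * (2 * M * κ * θ * ρ i x) ≤ 1 / 4 * ρ i x := by
    have := mul_le_mul_of_nonneg_right hd h0
    nlinarith
  have h7 : θ ^ 4 / 4 * ρ i x = θ ^ 4 * (1 / 4 * ρ i x) := by ring
  rw [h7]
  refine mul_le_mul_of_nonneg_left ?_ (by positivity)
  linarith

/-- **Drop under a budget in a window.** -/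
theorem drop_of_budget (h : Total η c₀ κ M D Ω adm t₀ φ lam₁ lam₂ ν ρ N) (hη : IsKernel η K c₀)
    (hκ0 : 0 < κ) (hκ1 : κ ≤ 1) {x : E} (hx : x ∈ D) {i d : ℕ} (b : ℕ → ℝ)
    (hb1 : ∀ n < d, b n ≤ 1)
    (hb : ∀ n < d, 0 < b n → x ∈ adm (i + n) ∧ ∃ r, t₀ / 2 ^ (i + n) ≤ r ∧
      r ≤ 2 * (t₀ / 2 ^ (i + n)) ∧
      Lam lam₁ lam₂ (ker η x r) ≤ -(b n * ∫ y, ker η x r y ∂ν))
    {B : ℝ} (hB : 4 ≤ c₀ / 4 * κ * B) (hJ : 16 * B + 2 ≤ ∑ n ∈ Finset.range d, b n) :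
    ρ (i + d) x ≤ ρ i x / 2 := by
  classical
  have hc0 := hη.pos
  have hc1 : c₀ ≤ 1 := (hη.lower 0 (by rw [norm_zero]; norm_num)).trans (hη.le_one 0)
  let I : Finset ℕ := (Finset.range d).filter fun n => wt (i + n) ≤ b n
  have hcls : ∀ n, ∃ q, (n < d ∧ wt (i + n) ≤ b n) →
      (q < i + n + 1 ∧ wt q ≤ b n ∧ b n ≤ 16 * wt q) := by
    intro n
    by_cases hi : n < d ∧ wt (i + n) ≤ b n
    · obtain ⟨q, h1, h2, h3⟩ := exists_class (hb1 n hi.1) hi.2
      exact ⟨q, fun _ => ⟨h1, h2, h3⟩⟩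
    · exact ⟨0, fun h => absurd h hi⟩
  choose q hq using hcls
  have hmem : ∀ n ∈ I, q n < i + n + 1 ∧ x ∈ Cen η D adm t₀ lam₁ lam₂ ν (i + n) (q n) := by
    intro n hn
    obtain ⟨hn1, hn2⟩ := Finset.mem_filter.1 hn
    have hnd := Finset.mem_range.1 hn1
    obtain ⟨h1, h2, h3⟩ := hq n ⟨hnd, hn2⟩
    have hpos : 0 < b n := lt_of_lt_of_le (wt_pos _) hn2
    obtain ⟨hadm, r, hr1, hr2, hr3⟩ := hb n hnd hpos
    refine ⟨h1, hx, hadm, r, hr1, hr2, hr3.trans ?_⟩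
    have h4 : 0 ≤ ∫ y, ker η x r y ∂ν := integral_nonneg fun y => ker_nonneg hη x r y
    have := mul_le_mul_of_nonneg_right h2 h4
    linarith
  have hsum : B ≤ ∑ n ∈ I, wt (q n) := by
    have h1 : ∑ n ∈ Finset.range d, b n
        = ∑ n ∈ I, b n + ∑ n ∈ (Finset.range d).filter (fun n => ¬ wt (i + n) ≤ b n), b n :=
      (Finset.sum_filter_add_sum_filter_not _ _ _).symm
    have h2 : ∑ n ∈ I, b n ≤ 16 * ∑ n ∈ I, wt (q n) := by
      rw [Finset.mul_sum]
      refine Finset.sum_le_sum fun n hn => ?_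
      obtain ⟨hn1, hn2⟩ := Finset.mem_filter.1 hn
      exact (hq n ⟨Finset.mem_range.1 hn1, hn2⟩).2.2
    have h3 : ∑ n ∈ (Finset.range d).filter (fun n => ¬ wt (i + n) ≤ b n), b n ≤ 2 := by
      refine le_trans (Finset.sum_le_sum fun n hn => ?_)
        (sum_wt_le ((Finset.range d).filter (fun n => ¬ wt (i + n) ≤ b n)))
      refine (not_le.1 (Finset.mem_filter.1 hn).2).le.trans ?_
      unfold wt
      exact pow_le_pow_of_le_one (by norm_num) (by norm_num) (by omega)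
    linarith
  have := Vale.Agent.P214.EX.budget_decay (fun n => ρ (i + n) x) (fun n => (h.good _).nonneg x)
    (fun n => (h.step (i + n)).le x) (κ := c₀ / 4 * κ) (by positivity) (by nlinarith) I q d
    (fun n hn => Finset.mem_range.1 (Finset.mem_filter.1 hn).1) (fun n hn => ?_) hsum hB
  · simpa using this
  · obtain ⟨h1, h2⟩ := hmem n hn
    have h3 := (h.step (i + n)).cls (q n) h1 x h2
    calc ρ (i + (n + 1)) x ≤ (1 - c₀ / 4 * (κ * st (q n))) * ρ (i + n) x := h3.2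
      _ = (1 - c₀ / 4 * κ * st (q n)) * ρ (i + n) x := by ring

/-- **A point with a large budget in a window belongs to the gap set.** -/
theorem mem_gap (h : Total η c₀ κ M D Ω adm t₀ φ lam₁ lam₂ ν ρ N) (hη : IsKernel η K c₀)
    (hκ0 : 0 < κ) (hκ1 : κ ≤ 1) (hMκ : 8 * M * κ ≤ 1) {x : E} (hx : x ∈ D) {i d : ℕ}
    (hd : 0 < d) (b : ℕ → ℝ) (hb1 : ∀ n < d, b n ≤ 1)
    (hb : ∀ n < d, 0 < b n → x ∈ adm (i + n) ∧ ∃ r, t₀ / 2 ^ (i + n) ≤ r ∧
      r ≤ 2 * (t₀ / 2 ^ (i + n)) ∧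
      Lam lam₁ lam₂ (ker η x r) ≤ -(b n * ∫ y, ker η x r y ∂ν))
    {B : ℝ} (hB : 4 ≤ c₀ / 4 * κ * B) (hJ : 16 * B + 2 ≤ ∑ n ∈ Finset.range d, b n) :
    x ∈ Gap ρ N i d (((d : ℝ)⁻¹) ^ 4 / 4) := by
  have hd' : (0 : ℝ) < d := by exact_mod_cast hd
  refine gap_of_drop h hκ0 (θ := (d : ℝ)⁻¹) (by positivity) ?_
    (drop_of_budget h hη hκ0 hκ1 hx b hb1 hb hB hJ)
  calc 8 * M * κ * (d : ℝ)⁻¹ * d = 8 * M * κ := by field_simp
    _ ≤ 1 := hMκ

/-- decomposition of the integral over a window of radii into dyadic windows -/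
theorem integral_windows' {Y : ℝ → ℝ} {t₀ : ℝ} (ht : 0 < t₀)
    (hY : ∀ a, 0 < a → IntervalIntegrable (fun r => Y r / r) volume a (2 * t₀)) (i d : ℕ) :
    ∫ r in (2 * (t₀ / 2 ^ (i + d)))..(2 * (t₀ / 2 ^ i)), Y r / r
      = ∑ n ∈ Finset.range d,
        ∫ r in (t₀ / 2 ^ (i + n))..(2 * (t₀ / 2 ^ (i + n))), Y r / r := by
  induction d with
  | zero => simp
  | succ d ih =>
    rw [Finset.sum_range_succ, ← ih]
    have h1 : 2 * (t₀ / 2 ^ (i + (d + 1))) = t₀ / 2 ^ (i + d) := by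
      rw [← add_assoc, pow_succ]; field_simp
    rw [h1]
    have hT : 0 < t₀ / 2 ^ (i + d) := by positivity
    have hT' : 0 < 2 * (t₀ / 2 ^ (i + d)) := by positivity
    have hT'' : 0 < 2 * (t₀ / 2 ^ i) := by positivity
    have h2 := intervalIntegral.integral_add_adjacent_intervals
      ((hY _ hT).trans (hY _ hT').symm) ((hY _ hT').trans (hY _ hT'').symm)
    rw [← h2, add_comm]

/-- **The same with the integral over all radii of the window.** -/
theorem mem_gap_integral (h : Total η c₀ κ M D Ω adm t₀ φ lam₁ lam₂ ν ρ N)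
    (hη : IsKernel η K c₀) (ht : 0 < t₀) (hκ0 : 0 < κ) (hκ1 : κ ≤ 1) (hMκ : 8 * M * κ ≤ 1)
    {x : E} (hx : x ∈ D) {i d : ℕ} (hd : 0 < d) (hadm : ∀ n < d, x ∈ adm (i + n))
    (Y : ℝ → ℝ) (hY1 : ∀ r, Y r ≤ 1)
    (hYint : ∀ a, 0 < a → IntervalIntegrable (fun r => Y r / r) volume a (2 * t₀))
    (hY : ∀ r, t₀ / 2 ^ (i + d) ≤ r → r ≤ 2 * (t₀ / 2 ^ i) → 0 < Y r →
      Lam lam₁ lam₂ (ker η x r) ≤ -(Y r * ∫ y, ker η x r y ∂ν))
    {B : ℝ} (hB : 4 ≤ c₀ / 4 * κ * B)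
    (hJ : Real.log 2 * (16 * B + 2)
      ≤ ∫ r in (2 * (t₀ / 2 ^ (i + d)))..(2 * (t₀ / 2 ^ i)), Y r / r) :
    x ∈ Gap ρ N i d (((d : ℝ)⁻¹) ^ 4 / 4) := by
  classical
  have hlog : 0 < Real.log 2 := Real.log_pos (by norm_num)
  have hT : ∀ i : ℕ, 0 < t₀ / 2 ^ i := fun i => by positivity
  have hex : ∀ n : ℕ, ∃ r, t₀ / 2 ^ (i + n) ≤ r ∧ r ≤ 2 * (t₀ / 2 ^ (i + n)) ∧
      (∫ r in (t₀ / 2 ^ (i + n))..(2 * (t₀ / 2 ^ (i + n))), Y r / r) ≤ Real.log 2 * Y r := by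
    intro n
    refine exists_large (hT _) ?_
    exact (hYint _ (hT _)).trans (hYint _ (by have := hT (i + n); linarith)).symm
  choose r hr1 hr2 hr3 using hex
  refine mem_gap h hη hκ0 hκ1 hMκ hx hd (fun n => Y (r n)) (fun n _ => hY1 _)
    (fun n hn hpos => ⟨hadm n hn, r n, hr1 n, hr2 n, ?_⟩) hB ?_
  · refine hY (r n) (le_trans ?_ (hr1 n)) ((hr2 n).trans ?_) hpos
    · gcongr
      · norm_num
    · gcongr
      · norm_num
      · omega
  · rw [integral_windows' ht hYint] at hJ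
    have h1 : ∑ n ∈ Finset.range d, ∫ r in (t₀ / 2 ^ (i + n))..(2 * (t₀ / 2 ^ (i + n))), Y r / r
        ≤ ∑ n ∈ Finset.range d, Real.log 2 * Y (r n) := Finset.sum_le_sum fun n _ => hr3 n
    rw [← Finset.mul_sum] at h1
    exact le_of_mul_le_mul_left (hJ.trans h1) hlog

end

end Vale.Agent.P214.COMP
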