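import Vale.Agent.P214.COMP.Pts
import Vale.Agent.P214.COMP.Charge
import Vale.Agent.P214.COMP.Window
import Vale.Agent.P214.GEN.ExhG

/-!
# P214, block COMP: the compensation over a cylinder

`comp_cyl`: the limit inequality of the exhaustion (GEN/ExhG), the positivity bound by
`εA + (points with the `N`-alternative) + (classes of points of the varifold)`, and the local
estimates of the classes against the gap sets give `Ffl (start) ≤ εA`.
-/

open MeasureTheory Set Filter Topology Metric Module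
open scoped ENNReal RealInnerProductSpace

set_option linter.all false

namespace Vale.Agent.P214.COMP

open Vale.Agent.P214.Skel Vale.Agent.P214.EX Vale.Agent.P214.R2 Vale.Agent.P214.GEN

variable {E : Type*} [NormedAddCommGroup E] [InnerProductSpace ℝ E] [FiniteDimensional ℝ E]
  [MeasurableSpace E] [BorelSpace E]
variable {m Q : ℕ} {T : Submodule ℝ E} {G : Set E} {h : ℝ} {ν : Measure E} {P : E → E →L[ℝ] E}
  {η : E → ℝ}

/-- the tilt measure of a base set -/
lemma nuB_apply {S : Set E} (hS : MeasurableSet S) :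
    nuB T ν P S = ∫⁻ y in cylSet T 0 2 ∩ T.starProjection ⁻¹' S,
      ENNReal.ofReal (FV.tilt T (P y)) ∂ν := by
  have hm : MeasurableSet (T.starProjection ⁻¹' S) := (measurable_starProjection T) hS
  unfold nuB
  rw [Measure.map_apply (measurable_starProjection T) hS, withDensity_apply _ hm,
    Measure.restrict_restrict hm, inter_comm]

section use

variable {c₀ κ₀ : ℝ} {M : ℕ} {adm : ℕ → Set E} {t₀ δ : ℝ} {φ : E → ℝ} {ρ N : ℕ → E → ℝ}

lemma tsum_N_eq (hC : FV.CylStat m T G h ν P) (hφ1 : ∀ x, ρ 0 x ≤ 1)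
    (hT : Total η c₀ κ₀ M (Dcen T) (closedBall (0 : E) (5 / 4)) adm t₀
      φ (lamA T ν) (lamB m Q T ν P) (nuB T ν P) ρ N) :
    ∑' j, ∫⁻ x, ENNReal.ofReal (N j x) ∂(nuB T ν P)
      = ENNReal.ofReal (∫ x, negLim N x ∂(nuB T ν P)) := by
  haveI := hC.fin
  haveI := isFinite_nuB hC
  rw [tsum_lintegral fun j => (hT.step j).cont]
  have h1 : ∀ x, ∑' j, ENNReal.ofReal (N j x) = ENNReal.ofReal (negLim N x) := fun x => by
    unfold negLim
    rw [ENNReal.ofReal_tsum_of_nonneg (fun j => (hT.step j).nonneg x)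
      (summable_N wt_le_one hT.good hT.step x)]
  have hn : ∀ x, 0 ≤ negLim N x := negLim_nonneg hT.step
  rw [lintegral_congr h1, ofReal_integral_eq_lintegral_ofReal]
  · refine Integrable.of_bound
      (measurable_negLim wt_le_one hT.good hT.step).aestronglyMeasurable 1
      (Eventually.of_forall fun x => ?_)
    rw [Real.norm_of_nonneg (hn x)]
    have h2 := negLim_le wt_le_one hT.good hT.step x
    have h3 := rhoLim_nonneg hT.good x
    linarith [hφ1 x]
  · exact Eventually.of_forall hn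

/-- **Compensation over a cylinder.** -/
theorem comp_cyl (hC : FV.CylStat m T G h ν P) (hφ : BaseTest T 0 1 φ) (hδ : 0 < δ)
    (hδ2 : δ ≤ 1) (ht0 : 0 < t₀) {K : ℝ → ℝ}
    (hT : Total (etaK K) c₀ κ₀ M (Dcen T) (closedBall (0 : E) (5 / 4)) adm t₀
      (psiStart φ δ) (lamA T ν) (lamB m Q T ν P) (nuB T ν P) ρ N)
    {ι : Type*} (lev dep : ι → ℕ) {mm : ι → ℝ} (hm : ∀ a, 0 < mm a) {c : ℝ}
    (hc : 0 < c) (hc1 : c ≤ 1) {dl : ι → ℝ≥0∞} {w : ι → E → ℝ≥0∞}
    {Cl : ι → Set E}
    (hΩ : ∀ a, ∀ z ∈ Cl a, closedBall (T.starProjection z) (2 * (t₀ / 2 ^ lev a)) ⊆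
      closedBall (0 : E) (5 / 4))
    (hCl : ∀ a, ∀ z ∈ Cl a, ∫⁻ y in Cl a ∩ T.starProjection ⁻¹'
        ball (T.starProjection z) (c * (t₀ / 2 ^ lev a)), w a y ∂ν
      ≤ dl a * nuB T ν P (closedBall (T.starProjection z) (2 * (t₀ / 2 ^ lev a)) ∩
        Gap ρ N (lev a) (dep a) (mm a)))
    {κ : ℝ≥0∞}
    (hκ : ∀ j, (∑' a, if lev a ≤ j ∧ j < lev a + dep a then dl a / ENNReal.ofReal (mm a) else 0)
      ≤ κ) (hκ1 : cst E c * κ ≤ ENNReal.ofReal (1 / 2))
    {Sp : Set E} {w₀ : E → ℝ≥0∞}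
    (hSp : ∀ y ∈ Sp, w₀ y * ENNReal.ofReal (rhoLim ρ (T.starProjection y))
      ≤ ENNReal.ofReal (1 / 2 * (negLim N (T.starProjection y) * FV.tilt T (P y))))
    {εA : ℝ} (hεA : 0 ≤ εA)
    (hpos : ENNReal.ofReal (Ffl m Q T ν P (rhoLim ρ)) ≤ ENNReal.ofReal εA +
      (∫⁻ y in Sp, w₀ y * ENNReal.ofReal (rhoLim ρ (T.starProjection y)) ∂ν +
      ∑' a, ∫⁻ y in Cl a, w a y * ENNReal.ofReal (rhoLim ρ (T.starProjection y)) ∂ν)) :
    Ffl m Q T ν P (psiStart φ δ) ≤ εA := by
  haveI := hC.fin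
  haveI := isFinite_nuB hC
  have hE := ExOut.of_total hT ht0
  have hψ1 := fun x => psiStart_le_one (x := x) hφ hδ hδ2
  have hρ1 : ∀ x, ρ 0 x ≤ 1 := fun x => by rw [hT.zero]; exact hψ1 x
  set S : ℝ := ∫ x, negLim N x ∂(nuB T ν P) with hS
  have hn : ∀ x, 0 ≤ negLim N x := negLim_nonneg hT.step
  have hS0 : 0 ≤ S := integral_nonneg hn
  have hneg0 : ∀ x : E, 2 ≤ ‖x‖ → negLim N x = 0 := by
    intro x hx
    unfold negLim
    rw [tsum_congr fun i => N_off hT i (x := x) (by linarith), tsum_zero]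
  have hSV : S = ∫ y, negLim N (T.starProjection y) * FV.tilt T (P y) ∂ν :=
    integral_nuB hC (measurable_negLim wt_le_one hT.good hT.step) hneg0
  have htot : Ffl m Q T ν P (psiStart φ δ) + S ≤ Ffl m Q T ν P (rhoLim ρ) := by
    rw [hSV]; exact ffl_le_lim hC hφ hδ hδ2 hT
  have h1 := classes_pts (ν := nuB T ν P) hE (measurable_starProjection T)
    (fun i x => rhoLim_le hT.good x i) lev dep hm hc hc1
    (C := Cl) (μ := fun _ => ν) (w := w) (δ := dl)
    (fun a => (isBounded_closedBall (x := (0 : E)) (r := 5 / 4)).subset (by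
      rintro _ ⟨z, hz, rfl⟩
      exact hΩ a z hz (mem_closedBall_self (by have := hE.scale_pos (lev a); positivity))))
    hΩ hCl hκ
  rw [tsum_N_eq hC hρ1 hT] at h1
  have h2 : ∑' a, ∫⁻ y in Cl a, w a y * ENNReal.ofReal (rhoLim ρ (T.starProjection y)) ∂ν
      ≤ ENNReal.ofReal (1 / 2 * S) := by
    refine h1.trans ?_
    rw [ENNReal.ofReal_mul (by norm_num)]
    gcongr
  have hint : Integrable (fun y => negLim N (T.starProjection y) * FV.tilt T (P y)) ν := by
    refine (integrable_tilt' hC).bdd_mul (c := 1)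
      ((measurable_negLim wt_le_one hT.good hT.step).comp
        (measurable_starProjection T)).aestronglyMeasurable ?_
    refine Eventually.of_forall fun y => ?_
    rw [Real.norm_of_nonneg (hn _)]
    have h2 := negLim_le wt_le_one hT.good hT.step (T.starProjection y)
    have h3 := rhoLim_nonneg hT.good (T.starProjection y)
    linarith [hρ1 (T.starProjection y)]
  have h3 : ∫⁻ y in Sp, w₀ y * ENNReal.ofReal (rhoLim ρ (T.starProjection y)) ∂ν
      ≤ ENNReal.ofReal (1 / 2 * S) := by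
    have haem : AEMeasurable (fun y => ENNReal.ofReal
        (1 / 2 * (negLim N (T.starProjection y) * FV.tilt T (P y)))) ν :=
      (hint.aestronglyMeasurable.aemeasurable.const_mul _).ennreal_ofReal
    have h4 : ∫⁻ y in Sp, w₀ y * ENNReal.ofReal (rhoLim ρ (T.starProjection y)) ∂ν
        ≤ ∫⁻ y in Sp, ENNReal.ofReal
          (1 / 2 * (negLim N (T.starProjection y) * FV.tilt T (P y))) ∂ν := by
      refine setLIntegral_mono_ae haem.restrict ?_
      exact Eventually.of_forall fun y hy => hSp y hy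
    refine h4.trans ((setLIntegral_le_lintegral _ _).trans (le_of_eq ?_))
    rw [hSV, ← integral_const_mul, ofReal_integral_eq_lintegral_ofReal (hint.const_mul _)]
    filter_upwards [tilt_nonneg_ae hC] with y hy
    have := hn (T.starProjection y)
    positivity
  have h5 : ENNReal.ofReal (Ffl m Q T ν P (rhoLim ρ)) ≤ ENNReal.ofReal (εA + S) := by
    refine (hpos.trans (add_le_add le_rfl (add_le_add h3 h2))).trans (le_of_eq ?_)
    rw [← ENNReal.ofReal_add (by positivity) (by positivity),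
      ← ENNReal.ofReal_add hεA (by positivity)]
    congr 1
    ring
  have h6 : Ffl m Q T ν P (rhoLim ρ) ≤ εA + S :=
    (ENNReal.ofReal_le_ofReal_iff (by positivity)).1 h5
  linarith

end use

end Vale.Agent.P214.COMP
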