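import Vale.Agent.P214.EX.Budget
import Vale.Agent.P214.EX.Iter
import Vale.Agent.P214.BES.Basic

/-!
# P214, block COMP: compensation of event classes by the level-resolved negativity

`ExOut`: what is used of the exhaustion (block EX).  `Gap ρ N i d m`: the points at which the
negativity allotted by the levels `i, ..., i+d-1` is at least `m * ρ i`.  `one_class`: a class of
points with a local estimate against gap sets is compensated.  `classes`: sum over all classes,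
each charged only to the levels of its window.  `comp`: the final inequality.
-/

open MeasureTheory Set Filter Topology Metric Module
open scoped ENNReal

set_option linter.all false

namespace Vale.Agent.P214.COMP

variable {E : Type*} [NormedAddCommGroup E] [NormedSpace ℝ E] [FiniteDimensional ℝ E]

/-- the part of the output of the exhaustion which is used by the compensation -/
structure ExOut (Ω : Set E) (t₀ : ℝ) (ρ N : ℕ → E → ℝ) : Prop where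
  ht : 0 < t₀
  contρ : ∀ i, Continuous (ρ i)
  contN : ∀ i, Continuous (N i)
  ρ0 : ∀ i x, 0 ≤ ρ i x
  N0 : ∀ i x, 0 ≤ N i x
  anti : ∀ i x, ρ (i + 1) x ≤ ρ i x
  loglip : ∀ i, EX.LogLip Ω (t₀ / 2 ^ i) (ρ i)

/-- the points with a lot of negativity in the window `[i, i + d)` -/
def Gap (ρ N : ℕ → E → ℝ) (i d : ℕ) (m : ℝ) : Set E :=
  {x | m * ρ i x ≤ ∑ j ∈ Finset.Ico i (i + d), N j x}

section basic

variable {Ω : Set E} {t₀ : ℝ} {ρ N : ℕ → E → ℝ}

lemma ExOut.scale_pos (h : ExOut Ω t₀ ρ N) (i : ℕ) : 0 < t₀ / 2 ^ i :=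
  div_pos h.ht (by positivity)

lemma ExOut.anti' (h : ExOut Ω t₀ ρ N) {i j : ℕ} (hij : i ≤ j) (x : E) : ρ j x ≤ ρ i x := by
  induction j, hij using Nat.le_induction with
  | base => exact le_rfl
  | succ j _ ih => exact (h.anti j x).trans ih

lemma ExOut.isClosed_gap (h : ExOut Ω t₀ ρ N) (i d : ℕ) (m : ℝ) : IsClosed (Gap ρ N i d m) :=
  isClosed_le (continuous_const.mul (h.contρ i))
    (continuous_finsetSum _ fun j _ => h.contN j)

/-- comparison of `ρ` at neighbouring points -/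
lemma ExOut.near_up (h : ExOut Ω t₀ ρ N) {i : ℕ} {x p : E} (hx : x ∈ Ω) (hp : p ∈ Ω)
    (hd : dist x p ≤ t₀ / 2 ^ i) : ρ i x ≤ 9 / 8 * ρ i p := by
  have hT := h.scale_pos i
  have h1 := h.loglip i x hx p hp (by linarith)
  have h2 : dist x p / (t₀ / 2 ^ i) ≤ 1 := by rw [div_le_one hT]; exact hd
  have h3 : (1 / 8 : ℝ) * (dist x p / (t₀ / 2 ^ i)) * ρ i p ≤ 1 / 8 * 1 * ρ i p := by
    have := h.ρ0 i p
    gcongr
  have h4 := (le_abs_self (ρ i x - ρ i p)).trans (h1.trans h3)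
  linarith

lemma ExOut.near_down (h : ExOut Ω t₀ ρ N) {i : ℕ} {x p : E} (hx : x ∈ Ω) (hp : p ∈ Ω)
    (hd : dist x p ≤ 2 * (t₀ / 2 ^ i)) : ρ i p ≤ 5 / 4 * ρ i x := by
  have hT := h.scale_pos i
  have hd' : dist p x ≤ 2 * (t₀ / 2 ^ i) := by rwa [dist_comm]
  have h1 := h.loglip i p hp x hx (by linarith)
  have h2 : dist p x / (t₀ / 2 ^ i) ≤ 2 := by rw [div_le_iff₀ hT]; exact hd'
  have h3 : (1 / 8 : ℝ) * (dist p x / (t₀ / 2 ^ i)) * ρ i x ≤ 1 / 8 * 2 * ρ i x := by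
    have := h.ρ0 i x
    gcongr
  have h4 := (le_abs_self (ρ i p - ρ i x)).trans (h1.trans h3)
  linarith

end basic

variable [MeasurableSpace E] [BorelSpace E]

section one

variable {Ω : Set E} {t₀ : ℝ} {ρ N : ℕ → E → ℝ} {ν : Measure E}

/-- the constant of the net argument with net radius `c T` -/
noncomputable def cst (E : Type*) [NormedAddCommGroup E] [NormedSpace ℝ E] (c : ℝ) : ℝ≥0∞ :=
  ENNReal.ofReal ((2 * (2 / c) + 1) ^ finrank ℝ E) * 2

/-- **One class.** -/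
theorem one_class (h : ExOut Ω t₀ ρ N) {i d J : ℕ} (hiJ : i ≤ J) {m c : ℝ} (hm : 0 < m)
    (hc : 0 < c) (hc1 : c ≤ 1) {δ : ℝ≥0∞} {w : E → ℝ≥0∞} {P : Set E}
    (hPb : Bornology.IsBounded P) (hPΩ : ∀ p ∈ P, closedBall p (2 * (t₀ / 2 ^ i)) ⊆ Ω)
    (hP : ∀ p ∈ P, ∫⁻ x in P ∩ ball p (c * (t₀ / 2 ^ i)), w x ∂ν
      ≤ δ * ν (closedBall p (2 * (t₀ / 2 ^ i)) ∩ Gap ρ N i d m)) :
    ∫⁻ x in P, w x * ENNReal.ofReal (ρ J x) ∂ν
      ≤ cst E c * (δ / ENNReal.ofReal m) *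
        ∑ j ∈ Finset.Ico i (i + d), ∫⁻ x, ENNReal.ofReal (N j x) ∂ν := by
  classical
  set T : ℝ := t₀ / 2 ^ i with hTdef
  have hT : 0 < T := h.scale_pos i
  have hcT : 0 < c * T := mul_pos hc hT
  obtain ⟨net, hnetP, hsep, hcov⟩ := BES.exists_net P hPb hcT
  have hm' : ENNReal.ofReal m ≠ 0 := by simpa using hm
  have hGm : MeasurableSet (Gap ρ N i d m) := (h.isClosed_gap i d m).measurableSet
  set S : E → ℝ≥0∞ := fun x => ∑ j ∈ Finset.Ico i (i + d), ENNReal.ofReal (N j x) with hS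
  have hSm : Measurable S := by
    refine Finset.measurable_sum _ fun j _ => ?_
    exact (h.contN j).measurable.ennreal_ofReal
  -- one ball
  have hball : ∀ p ∈ net, ∫⁻ x in P ∩ ball p (c * T), w x * ENNReal.ofReal (ρ J x) ∂ν
      ≤ (2 * (δ / ENNReal.ofReal m)) *
        ∫⁻ x in closedBall p (2 * T) ∩ Gap ρ N i d m, S x ∂ν := by
    intro p hp
    have hpP : p ∈ P := hnetP hp
    have hpΩ : p ∈ Ω := hPΩ p hpP (mem_closedBall_self (by positivity))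
    have h1 : ∫⁻ x in P ∩ ball p (c * T), w x * ENNReal.ofReal (ρ J x) ∂ν
        ≤ ∫⁻ x in P ∩ ball p (c * T), w x * ENNReal.ofReal (9 / 8 * ρ i p) ∂ν := by
      have hae : ∀ᵐ x ∂(ν.restrict (P ∩ ball p (c * T))), ρ J x ≤ 9 / 8 * ρ i p := by
        have hms : MeasurableSet {x | ρ J x ≤ 9 / 8 * ρ i p} :=
          (isClosed_le (h.contρ J) continuous_const).measurableSet
        rw [ae_iff]
        have : {x | ¬ρ J x ≤ 9 / 8 * ρ i p} = {x | ρ J x ≤ 9 / 8 * ρ i p}ᶜ := rfl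
        rw [this, Measure.restrict_apply hms.compl]
        convert measure_empty (μ := ν)
        refine eq_empty_of_forall_notMem fun x hx => hx.1 ?_
        have hxd : dist x p ≤ T := by
          have := hx.2.2
          rw [mem_ball] at this
          nlinarith
        have hxΩ : x ∈ Ω := hPΩ p hpP (by rw [mem_closedBall]; linarith)
        exact (h.anti' hiJ x).trans (h.near_up hxΩ hpΩ hxd)
      refine lintegral_mono_ae ?_
      filter_upwards [hae] with x hx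
      gcongr
    have h2 : ∫⁻ x in P ∩ ball p (c * T), w x * ENNReal.ofReal (9 / 8 * ρ i p) ∂ν
        = ENNReal.ofReal (9 / 8 * ρ i p) * ∫⁻ x in P ∩ ball p (c * T), w x ∂ν := by
      rw [← lintegral_const_mul' _ _ ENNReal.ofReal_ne_top]
      simp_rw [mul_comm]
    have h3 : ENNReal.ofReal (9 / 8 * ρ i p) * ν (closedBall p (2 * T) ∩ Gap ρ N i d m)
        ≤ (2 / ENNReal.ofReal m) * ∫⁻ x in closedBall p (2 * T) ∩ Gap ρ N i d m, S x ∂ν := by
      rw [← setLIntegral_const, ← lintegral_const_mul _ hSm]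
      refine setLIntegral_mono (hSm.const_mul _) fun x hx => ?_
      have hxΩ : x ∈ Ω := hPΩ p hpP hx.1
      have hxd : dist x p ≤ 2 * T := hx.1
      have h4 := h.near_down hxΩ hpΩ hxd
      have h5 : m * ρ i x ≤ ∑ j ∈ Finset.Ico i (i + d), N j x := hx.2
      have h6 : S x = ENNReal.ofReal (∑ j ∈ Finset.Ico i (i + d), N j x) := by
        rw [hS, ENNReal.ofReal_sum_of_nonneg fun j _ => h.N0 j x]
      rw [h6]
      have h7 : (2 : ℝ≥0∞) / ENNReal.ofReal m = ENNReal.ofReal (2 / m) := by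
        rw [ENNReal.ofReal_div_of_pos hm]; simp
      rw [h7, ← ENNReal.ofReal_mul (by positivity)]
      apply ENNReal.ofReal_le_ofReal
      have h8 : 2 / m * (m * ρ i x) ≤ 2 / m * ∑ j ∈ Finset.Ico i (i + d), N j x := by gcongr
      have h9 : 2 / m * (m * ρ i x) = 2 * ρ i x := by field_simp
      nlinarith [h.ρ0 i x]
    calc ∫⁻ x in P ∩ ball p (c * T), w x * ENNReal.ofReal (ρ J x) ∂ν
        ≤ ENNReal.ofReal (9 / 8 * ρ i p) * ∫⁻ x in P ∩ ball p (c * T), w x ∂ν := h1.trans h2.le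
      _ ≤ ENNReal.ofReal (9 / 8 * ρ i p) *
          (δ * ν (closedBall p (2 * T) ∩ Gap ρ N i d m)) := by
          gcongr
          exact hP p hpP
      _ = δ * (ENNReal.ofReal (9 / 8 * ρ i p) *
          ν (closedBall p (2 * T) ∩ Gap ρ N i d m)) := by ring
      _ ≤ δ * ((2 / ENNReal.ofReal m) *
          ∫⁻ x in closedBall p (2 * T) ∩ Gap ρ N i d m, S x ∂ν) := by gcongr
      _ = (2 * (δ / ENNReal.ofReal m)) *
          ∫⁻ x in closedBall p (2 * T) ∩ Gap ρ N i d m, S x ∂ν := by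
          rw [div_eq_mul_inv, div_eq_mul_inv]; ring
  have hsum : ∑ p ∈ net, ∫⁻ x in closedBall p (2 * T) ∩ Gap ρ N i d m, S x ∂ν
      ≤ ENNReal.ofReal ((2 * (2 / c) + 1) ^ finrank ℝ E) * ∫⁻ x in univ, S x ∂ν := by
    refine BES.sum_lintegral_le ν net (t := c * T) (R := 2 / c) hcT (by positivity) hsep
      (fun p => closedBall p (2 * T) ∩ Gap ρ N i d m) (fun p _ => ?_)
      (fun p _ => measurableSet_closedBall.inter hGm) univ (fun p _ => subset_univ _) S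
    refine inter_subset_left.trans (closedBall_subset_closedBall ?_)
    have : 2 / c * (c * T) = 2 * T := by field_simp
    rw [this]
  have hcover : ∫⁻ x in P, w x * ENNReal.ofReal (ρ J x) ∂ν
      ≤ ∑ p ∈ net, ∫⁻ x in P ∩ ball p (c * T), w x * ENNReal.ofReal (ρ J x) ∂ν := by
    have h1 : P ⊆ ⋃ p : net, P ∩ ball (p : E) (c * T) := by
      intro x hx
      obtain ⟨p, hp, hxp⟩ := mem_iUnion₂.1 (hcov hx)
      exact mem_iUnion.2 ⟨⟨p, hp⟩, hx, hxp⟩
    calc ∫⁻ x in P, w x * ENNReal.ofReal (ρ J x) ∂ν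
        ≤ ∫⁻ x in ⋃ p : net, P ∩ ball (p : E) (c * T), w x * ENNReal.ofReal (ρ J x) ∂ν :=
          lintegral_mono' (Measure.restrict_mono h1 le_rfl) le_rfl
      _ ≤ ∑' p : net, ∫⁻ x in P ∩ ball (p : E) (c * T), w x * ENNReal.ofReal (ρ J x) ∂ν :=
          lintegral_iUnion_le _ _
      _ = ∑ p ∈ net, ∫⁻ x in P ∩ ball p (c * T), w x * ENNReal.ofReal (ρ J x) ∂ν := by
          rw [tsum_fintype]
          exact Finset.sum_coe_sort net
            fun p => ∫⁻ x in P ∩ ball p (c * T), w x * ENNReal.ofReal (ρ J x) ∂ν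
  calc ∫⁻ x in P, w x * ENNReal.ofReal (ρ J x) ∂ν
      ≤ ∑ p ∈ net, (2 * (δ / ENNReal.ofReal m)) *
        ∫⁻ x in closedBall p (2 * T) ∩ Gap ρ N i d m, S x ∂ν :=
          hcover.trans (Finset.sum_le_sum hball)
    _ = (2 * (δ / ENNReal.ofReal m)) *
        ∑ p ∈ net, ∫⁻ x in closedBall p (2 * T) ∩ Gap ρ N i d m, S x ∂ν := by
          rw [Finset.mul_sum]
    _ ≤ (2 * (δ / ENNReal.ofReal m)) *
        (ENNReal.ofReal ((2 * (2 / c) + 1) ^ finrank ℝ E) * ∫⁻ x in univ, S x ∂ν) := by gcongr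
    _ = cst E c * (δ / ENNReal.ofReal m) * ∫⁻ x, S x ∂ν := by
          rw [Measure.restrict_univ, cst]; ring
    _ = cst E c * (δ / ENNReal.ofReal m) *
        ∑ j ∈ Finset.Ico i (i + d), ∫⁻ x, ENNReal.ofReal (N j x) ∂ν := by
          rw [hS, lintegral_finset_sum _ fun j _ => (h.contN j).measurable.ennreal_ofReal]

/-- **All classes.** Each class is charged only to the levels of its window `[lev a, lev a+dep a)`;
the charges to one level must sum up to at most `κ`. -/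
theorem classes (h : ExOut Ω t₀ ρ N) {ι : Type*} [Countable ι] {J : ℕ} (lev dep : ι → ℕ)
    (hJ : ∀ a, lev a + dep a ≤ J) {m : ι → ℝ} (hm : ∀ a, 0 < m a) {c : ℝ} (hc : 0 < c)
    (hc1 : c ≤ 1) {δ : ι → ℝ≥0∞} {w : E → ℝ≥0∞} {P : ι → Set E}
    (hPb : ∀ a, Bornology.IsBounded (P a))
    (hPΩ : ∀ a, ∀ p ∈ P a, closedBall p (2 * (t₀ / 2 ^ lev a)) ⊆ Ω)
    (hP : ∀ a, ∀ p ∈ P a, ∫⁻ x in P a ∩ ball p (c * (t₀ / 2 ^ lev a)), w x ∂ν
      ≤ δ a * ν (closedBall p (2 * (t₀ / 2 ^ lev a)) ∩ Gap ρ N (lev a) (dep a) (m a)))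
    {κ : ℝ≥0∞}
    (hκ : ∀ j, (∑' a, if lev a ≤ j ∧ j < lev a + dep a then δ a / ENNReal.ofReal (m a) else 0)
      ≤ κ) :
    ∫⁻ x in ⋃ a, P a, w x * ENNReal.ofReal (ρ J x) ∂ν
      ≤ cst E c * κ * ∑ j ∈ Finset.range J, ∫⁻ x, ENNReal.ofReal (N j x) ∂ν := by
  classical
  have h1 : ∀ a, ∫⁻ x in P a, w x * ENNReal.ofReal (ρ J x) ∂ν
      ≤ ∑ j ∈ Finset.range J, cst E c *
        (if lev a ≤ j ∧ j < lev a + dep a then δ a / ENNReal.ofReal (m a) else 0) *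
        ∫⁻ x, ENNReal.ofReal (N j x) ∂ν := by
    intro a
    refine (one_class h (J := J) (by have := hJ a; omega) (hm a) hc hc1 (hPb a) (hPΩ a)
      (hP a)).trans (le_of_eq ?_)
    rw [Finset.mul_sum]
    have h2 : Finset.Ico (lev a) (lev a + dep a) ⊆ Finset.range J := by
      intro j hj
      rw [Finset.mem_Ico] at hj
      rw [Finset.mem_range]
      have := hJ a
      omega
    rw [← Finset.sum_subset h2]
    · refine Finset.sum_congr rfl fun j hj => ?_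
      rw [Finset.mem_Ico] at hj
      rw [if_pos hj]
    · intro j _ hj
      rw [Finset.mem_Ico] at hj
      rw [if_neg hj]
      simp
  calc ∫⁻ x in ⋃ a, P a, w x * ENNReal.ofReal (ρ J x) ∂ν
      ≤ ∑' a, ∫⁻ x in P a, w x * ENNReal.ofReal (ρ J x) ∂ν := lintegral_iUnion_le _ _
    _ ≤ ∑' a, ∑ j ∈ Finset.range J, cst E c *
        (if lev a ≤ j ∧ j < lev a + dep a then δ a / ENNReal.ofReal (m a) else 0) *
        ∫⁻ x, ENNReal.ofReal (N j x) ∂ν := ENNReal.tsum_le_tsum h1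
    _ = ∑ j ∈ Finset.range J, cst E c *
        (∑' a, if lev a ≤ j ∧ j < lev a + dep a then δ a / ENNReal.ofReal (m a) else 0) *
        ∫⁻ x, ENNReal.ofReal (N j x) ∂ν := by
        rw [Summable.tsum_finsetSum fun j _ => ENNReal.summable]
        refine Finset.sum_congr rfl fun j _ => ?_
        rw [ENNReal.tsum_mul_right, ENNReal.tsum_mul_left]
    _ ≤ ∑ j ∈ Finset.range J, cst E c * κ * ∫⁻ x, ENNReal.ofReal (N j x) ∂ν := by
        refine Finset.sum_le_sum fun j _ => ?_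
        gcongr
        exact hκ j
    _ = cst E c * κ * ∑ j ∈ Finset.range J, ∫⁻ x, ENNReal.ofReal (N j x) ∂ν := by
        rw [Finset.mul_sum]

end one

/-- **Compensation.** -/
theorem comp {Ω : Set E} {t₀ : ℝ} {ρ N : ℕ → E → ℝ} {ν lam₁ lam₂ : Measure E}
    [IsFiniteMeasure ν] (h : ExOut Ω t₀ ρ N) {J : ℕ}
    (hNint : ∀ j, Integrable (N j) ν)
    (htot : EX.Lam lam₁ lam₂ (ρ 0) + ∑ j ∈ Finset.range J, ∫ x, N j x ∂ν
      ≤ EX.Lam lam₁ lam₂ (ρ J))
    {w : E → ℝ≥0∞} {A : Set E} {εA : ℝ} (hεA : 0 ≤ εA)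
    (hpos : ENNReal.ofReal (EX.Lam lam₁ lam₂ (ρ J))
      ≤ ENNReal.ofReal εA + ∫⁻ x in A, w x * ENNReal.ofReal (ρ J x) ∂ν)
    {ι : Type*} [Countable ι] (lev dep : ι → ℕ) (hJ : ∀ a, lev a + dep a ≤ J) {m : ι → ℝ}
    (hm : ∀ a, 0 < m a) {c : ℝ} (hc : 0 < c) (hc1 : c ≤ 1) {δ : ι → ℝ≥0∞} {P : ι → Set E}
    (hPb : ∀ a, Bornology.IsBounded (P a))
    (hPΩ : ∀ a, ∀ p ∈ P a, closedBall p (2 * (t₀ / 2 ^ lev a)) ⊆ Ω)
    (hP : ∀ a, ∀ p ∈ P a, ∫⁻ x in P a ∩ ball p (c * (t₀ / 2 ^ lev a)), w x ∂ν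
      ≤ δ a * ν (closedBall p (2 * (t₀ / 2 ^ lev a)) ∩ Gap ρ N (lev a) (dep a) (m a)))
    {κ : ℝ≥0∞}
    (hκ : ∀ j, (∑' a, if lev a ≤ j ∧ j < lev a + dep a then δ a / ENNReal.ofReal (m a) else 0)
      ≤ κ) (hκ1 : cst E c * κ ≤ 1 / 4)
    {Sp Cl : Set E} {ε : ℝ} (hε : 0 ≤ ε)
    (hSp : ∀ x ∈ Sp, w x * ENNReal.ofReal (ρ J x)
      ≤ 1 / 4 * ∑ j ∈ Finset.range J, ENNReal.ofReal (N j x))
    (hCl : ∫⁻ x in Cl, w x * ENNReal.ofReal (ρ J x) ∂ν ≤ ENNReal.ofReal ε)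
    (hcov : A ⊆ Sp ∪ Cl ∪ ⋃ a, P a) :
    EX.Lam lam₁ lam₂ (ρ 0) + 1 / 2 * ∑ j ∈ Finset.range J, ∫ x, N j x ∂ν ≤ εA + ε := by
  classical
  set Sr : ℝ := ∑ j ∈ Finset.range J, ∫ x, N j x ∂ν with hSr
  have hN1 : ∀ j, ∫⁻ x, ENNReal.ofReal (N j x) ∂ν = ENNReal.ofReal (∫ x, N j x ∂ν) := fun j =>
    (ofReal_integral_eq_lintegral_ofReal (hNint j)
      (Eventually.of_forall fun x => h.N0 j x)).symm
  have hS : ∑ j ∈ Finset.range J, ∫⁻ x, ENNReal.ofReal (N j x) ∂ν = ENNReal.ofReal Sr := by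
    rw [hSr, ENNReal.ofReal_sum_of_nonneg fun j _ => integral_nonneg fun x => h.N0 j x]
    exact Finset.sum_congr rfl fun j _ => hN1 j
  have hSr0 : 0 ≤ Sr := Finset.sum_nonneg fun j _ => integral_nonneg fun x => h.N0 j x
  have hmeasS : Measurable fun x => ∑ j ∈ Finset.range J, ENNReal.ofReal (N j x) :=
    Finset.measurable_sum _ fun j _ => (h.contN j).measurable.ennreal_ofReal
  have h1 : ∫⁻ x in Sp, w x * ENNReal.ofReal (ρ J x) ∂ν ≤ 1 / 4 * ENNReal.ofReal Sr := by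
    calc ∫⁻ x in Sp, w x * ENNReal.ofReal (ρ J x) ∂ν
        ≤ ∫⁻ x in Sp, 1 / 4 * ∑ j ∈ Finset.range J, ENNReal.ofReal (N j x) ∂ν :=
          setLIntegral_mono (hmeasS.const_mul _) hSp
      _ ≤ ∫⁻ x, 1 / 4 * ∑ j ∈ Finset.range J, ENNReal.ofReal (N j x) ∂ν :=
          setLIntegral_le_lintegral _ _
      _ = 1 / 4 * ENNReal.ofReal Sr := by
          rw [lintegral_const_mul _ hmeasS, lintegral_finset_sum _ fun j _ =>
            (h.contN j).measurable.ennreal_ofReal, hS]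
  have h2 : ∫⁻ x in ⋃ a, P a, w x * ENNReal.ofReal (ρ J x) ∂ν ≤ 1 / 4 * ENNReal.ofReal Sr := by
    refine (classes h lev dep hJ hm hc hc1 hPb hPΩ hP hκ).trans ?_
    rw [hS]
    gcongr
  have h3 : ∫⁻ x in A, w x * ENNReal.ofReal (ρ J x) ∂ν
      ≤ 1 / 4 * ENNReal.ofReal Sr + ENNReal.ofReal ε + 1 / 4 * ENNReal.ofReal Sr := by
    calc ∫⁻ x in A, w x * ENNReal.ofReal (ρ J x) ∂ν
        ≤ ∫⁻ x in Sp ∪ Cl ∪ ⋃ a, P a, w x * ENNReal.ofReal (ρ J x) ∂ν :=
          lintegral_mono' (Measure.restrict_mono hcov le_rfl) le_rfl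
      _ ≤ ∫⁻ x in Sp ∪ Cl, w x * ENNReal.ofReal (ρ J x) ∂ν +
          ∫⁻ x in ⋃ a, P a, w x * ENNReal.ofReal (ρ J x) ∂ν := lintegral_union_le _ _ _
      _ ≤ (∫⁻ x in Sp, w x * ENNReal.ofReal (ρ J x) ∂ν +
          ∫⁻ x in Cl, w x * ENNReal.ofReal (ρ J x) ∂ν) +
          ∫⁻ x in ⋃ a, P a, w x * ENNReal.ofReal (ρ J x) ∂ν := by
          gcongr
          exact lintegral_union_le _ _ _
      _ ≤ _ := by gcongr
  have h4 : (1 / 4 : ℝ≥0∞) * ENNReal.ofReal Sr = ENNReal.ofReal (1 / 4 * Sr) := by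
    rw [ENNReal.ofReal_mul (by norm_num)]
    congr 1
    rw [ENNReal.ofReal_div_of_pos (by norm_num)]
    simp
  have h5 : ENNReal.ofReal (EX.Lam lam₁ lam₂ (ρ J))
      ≤ ENNReal.ofReal (εA + (1 / 4 * Sr + ε + 1 / 4 * Sr)) := by
    refine (hpos.trans (add_le_add le_rfl h3)).trans (le_of_eq ?_)
    rw [h4, ENNReal.ofReal_add hεA (by positivity), ENNReal.ofReal_add (by positivity) (by positivity),
      ENNReal.ofReal_add (by positivity) hε]
  have h6 : EX.Lam lam₁ lam₂ (ρ J) ≤ εA + (1 / 4 * Sr + ε + 1 / 4 * Sr) :=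
    (ENNReal.ofReal_le_ofReal_iff (by positivity)).1 h5
  linarith

end Vale.Agent.P214.COMP
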