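import Vale.Agent.P214.COMP.Main

/-!
# P214, block COMP: classes of points of the varifold

`one_class_pts`, `classes_pts`, `comp_pts`: as `one_class`, `classes`, `comp`, but the positivity is
carried by arbitrary measures on an arbitrary space `X` with a measurable map `q : X → E` to the
base (`X` = the ambient space, `q` = projection to the plane, `w a` = the weight of the class `a`,
for example the squared tilt, and `C a` = an arbitrary class of points of the varifold).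
The test function is any `f` below all `ρ (lev a)` (for example the limit of the `ρ i`).
-/

open MeasureTheory Set Filter Topology Metric Module
open scoped ENNReal

set_option linter.all false

namespace Vale.Agent.P214.COMP

variable {E : Type*} [NormedAddCommGroup E] [NormedSpace ℝ E] [FiniteDimensional ℝ E]
  [MeasurableSpace E] [BorelSpace E]
variable {X : Type*} [MeasurableSpace X]

section one

variable {Ω : Set E} {t₀ : ℝ} {ρ N : ℕ → E → ℝ} {ν : Measure E} {q : X → E}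

/-- the gap set carries the negativity of the window -/
lemma gap_le (h : ExOut Ω t₀ ρ N) {i d : ℕ} {m : ℝ} (hm : 0 < m) {p : E} (hp : p ∈ Ω)
    {R : ℝ} (hR : R ≤ 2 * (t₀ / 2 ^ i)) (hR2 : closedBall p R ⊆ Ω) :
    ENNReal.ofReal (9 / 8 * ρ i p) * ν (closedBall p R ∩ Gap ρ N i d m)
      ≤ (2 / ENNReal.ofReal m) * ∫⁻ x in closedBall p R ∩ Gap ρ N i d m,
        ∑ j ∈ Finset.Ico i (i + d), ENNReal.ofReal (N j x) ∂ν := by
  set S : E → ℝ≥0∞ := fun x => ∑ j ∈ Finset.Ico i (i + d), ENNReal.ofReal (N j x) with hS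
  have hSm : Measurable S := by
    refine Finset.measurable_sum _ fun j _ => ?_
    exact (h.contN j).measurable.ennreal_ofReal
  rw [← setLIntegral_const, ← lintegral_const_mul _ hSm]
  refine setLIntegral_mono (hSm.const_mul _) fun x hx => ?_
  have hxΩ : x ∈ Ω := hR2 hx.1
  have hxd : dist x p ≤ 2 * (t₀ / 2 ^ i) := (mem_closedBall.1 hx.1).trans hR
  have h4 := h.near_down hxΩ hp hxd
  have h5 : m * ρ i x ≤ ∑ j ∈ Finset.Ico i (i + d), N j x := hx.2
  have h6 : S x = ENNReal.ofReal (∑ j ∈ Finset.Ico i (i + d), N j x) := by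
    rw [hS, ENNReal.ofReal_sum_of_nonneg fun j _ => h.N0 j x]
  rw [h6]
  have h7 : (2 : ℝ≥0∞) / ENNReal.ofReal m = ENNReal.ofReal (2 / m) := by
    rw [ENNReal.ofReal_div_of_pos hm]; simp
  rw [h7, ← ENNReal.ofReal_mul (by positivity)]
  apply ENNReal.ofReal_le_ofReal
  have h8 : 2 / m * (m * ρ i x) ≤ 2 / m * ∑ j ∈ Finset.Ico i (i + d), N j x := by gcongr
  have h9 : 2 / m * (m * ρ i x) = 2 * ρ i x := by field_simp
  nlinarith [h.ρ0 i x]

/-- **One class of points.** -/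
theorem one_class_pts (h : ExOut Ω t₀ ρ N) (hq : Measurable q) {i d : ℕ} {f : E → ℝ}
    (hf : ∀ x, f x ≤ ρ i x) {m c : ℝ} (hm : 0 < m)
    (hc : 0 < c) (hc1 : c ≤ 1) {δ : ℝ≥0∞} {μ : Measure X} {w : X → ℝ≥0∞} {C : Set X}
    (hCb : Bornology.IsBounded (q '' C))
    (hCΩ : ∀ z ∈ C, closedBall (q z) (2 * (t₀ / 2 ^ i)) ⊆ Ω)
    (hC : ∀ z ∈ C, ∫⁻ y in C ∩ q ⁻¹' ball (q z) (c * (t₀ / 2 ^ i)), w y ∂μ
      ≤ δ * ν (closedBall (q z) (2 * (t₀ / 2 ^ i)) ∩ Gap ρ N i d m)) :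
    ∫⁻ y in C, w y * ENNReal.ofReal (f (q y)) ∂μ
      ≤ cst E c * (δ / ENNReal.ofReal m) *
        ∑ j ∈ Finset.Ico i (i + d), ∫⁻ x, ENNReal.ofReal (N j x) ∂ν := by
  classical
  set T : ℝ := t₀ / 2 ^ i with hTdef
  have hT : 0 < T := h.scale_pos i
  have hcT : 0 < c * T := mul_pos hc hT
  obtain ⟨net, hnetP, hsep, hcov⟩ := BES.exists_net (q '' C) hCb hcT
  have hGm : MeasurableSet (Gap ρ N i d m) := (h.isClosed_gap i d m).measurableSet
  set S : E → ℝ≥0∞ := fun x => ∑ j ∈ Finset.Ico i (i + d), ENNReal.ofReal (N j x) with hS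
  have hSm : Measurable S := by
    refine Finset.measurable_sum _ fun j _ => ?_
    exact (h.contN j).measurable.ennreal_ofReal
  -- one ball
  have hball : ∀ p ∈ net, ∫⁻ y in C ∩ q ⁻¹' ball p (c * T), w y * ENNReal.ofReal (f (q y)) ∂μ
      ≤ (2 * (δ / ENNReal.ofReal m)) *
        ∫⁻ x in closedBall p (2 * T) ∩ Gap ρ N i d m, S x ∂ν := by
    intro p hp
    obtain ⟨z, hz, rfl⟩ := hnetP hp
    set p := q z with hpdef
    have hpΩ : p ∈ Ω := hCΩ z hz (mem_closedBall_self (by positivity))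
    have h1 : ∫⁻ y in C ∩ q ⁻¹' ball p (c * T), w y * ENNReal.ofReal (f (q y)) ∂μ
        ≤ ∫⁻ y in C ∩ q ⁻¹' ball p (c * T), w y * ENNReal.ofReal (9 / 8 * ρ i p) ∂μ := by
      have hae : ∀ᵐ y ∂(μ.restrict (C ∩ q ⁻¹' ball p (c * T))), ρ i (q y) ≤ 9 / 8 * ρ i p := by
        have hms : MeasurableSet {y | ρ i (q y) ≤ 9 / 8 * ρ i p} :=
          hq (isClosed_le (h.contρ i) continuous_const).measurableSet
        rw [ae_iff]
        have : {y | ¬ρ i (q y) ≤ 9 / 8 * ρ i p} = {y | ρ i (q y) ≤ 9 / 8 * ρ i p}ᶜ := rfl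
        rw [this, Measure.restrict_apply hms.compl]
        convert measure_empty (μ := μ)
        refine eq_empty_of_forall_notMem fun y hy => hy.1 ?_
        have hyd : dist (q y) p ≤ T := by
          have := hy.2.2
          rw [mem_preimage, mem_ball] at this
          nlinarith
        have hyΩ : q y ∈ Ω := hCΩ z hz (by rw [mem_closedBall]; linarith)
        exact h.near_up hyΩ hpΩ hyd
      refine lintegral_mono_ae ?_
      filter_upwards [hae] with y hy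
      have := (hf (q y)).trans hy
      gcongr
    have h2 : ∫⁻ y in C ∩ q ⁻¹' ball p (c * T), w y * ENNReal.ofReal (9 / 8 * ρ i p) ∂μ
        = ENNReal.ofReal (9 / 8 * ρ i p) * ∫⁻ y in C ∩ q ⁻¹' ball p (c * T), w y ∂μ := by
      rw [← lintegral_const_mul' _ _ ENNReal.ofReal_ne_top]
      simp_rw [mul_comm]
    have h3 := gap_le (ν := ν) h (d := d) hm hpΩ le_rfl (hCΩ z hz)
    calc ∫⁻ y in C ∩ q ⁻¹' ball p (c * T), w y * ENNReal.ofReal (f (q y)) ∂μ
        ≤ ENNReal.ofReal (9 / 8 * ρ i p) * ∫⁻ y in C ∩ q ⁻¹' ball p (c * T), w y ∂μ :=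
          h1.trans h2.le
      _ ≤ ENNReal.ofReal (9 / 8 * ρ i p) *
          (δ * ν (closedBall p (2 * T) ∩ Gap ρ N i d m)) := by
          gcongr
          exact hC z hz
      _ = δ * (ENNReal.ofReal (9 / 8 * ρ i p) *
          ν (closedBall p (2 * T) ∩ Gap ρ N i d m)) := by ring
      _ ≤ δ * ((2 / ENNReal.ofReal m) *
          ∫⁻ x in closedBall p (2 * T) ∩ Gap ρ N i d m, S x ∂ν) := by gcongr
      _ = (2 * (δ / ENNReal.ofReal m)) *
          ∫⁻ x in closedBall p (2 * T) ∩ Gap ρ N i d m, S x ∂ν := by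
          rw [div_eq_mul_inv, div_eq_mul_inv]; ring
  have hsum : ∑ p ∈ net, ∫⁻ x in closedBall p (2 * T) ∩ Gap ρ N i d m, S x ∂ν
      ≤ ENNReal.ofReal ((2 * (2 / c) + 1) ^ finrank ℝ E) * ∫⁻ x in univ, S x ∂ν := by
    refine BES.sum_lintegral_le ν net (t := c * T) (R := 2 / c) hcT (by positivity) hsep
      (fun p => closedBall p (2 * T) ∩ Gap ρ N i d m) (fun p _ => ?_)
      (fun p _ => measurableSet_closedBall.inter hGm) univ (fun p _ => subset_univ _) S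
    refine inter_subset_left.trans (closedBall_subset_closedBall ?_)
    have : 2 / c * (c * T) = 2 * T := by field_simp
    rw [this]
  have hcover : ∫⁻ y in C, w y * ENNReal.ofReal (f (q y)) ∂μ
      ≤ ∑ p ∈ net, ∫⁻ y in C ∩ q ⁻¹' ball p (c * T), w y * ENNReal.ofReal (f (q y)) ∂μ := by
    have h1 : C ⊆ ⋃ p : net, C ∩ q ⁻¹' ball (p : E) (c * T) := by
      intro y hy
      obtain ⟨p, hp, hyp⟩ := mem_iUnion₂.1 (hcov (mem_image_of_mem q hy))
      exact mem_iUnion.2 ⟨⟨p, hp⟩, hy, hyp⟩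
    calc ∫⁻ y in C, w y * ENNReal.ofReal (f (q y)) ∂μ
        ≤ ∫⁻ y in ⋃ p : net, C ∩ q ⁻¹' ball (p : E) (c * T),
          w y * ENNReal.ofReal (f (q y)) ∂μ :=
          lintegral_mono' (Measure.restrict_mono h1 le_rfl) le_rfl
      _ ≤ ∑' p : net, ∫⁻ y in C ∩ q ⁻¹' ball (p : E) (c * T),
          w y * ENNReal.ofReal (f (q y)) ∂μ := lintegral_iUnion_le _ _
      _ = ∑ p ∈ net, ∫⁻ y in C ∩ q ⁻¹' ball (p : E) (c * T),
          w y * ENNReal.ofReal (f (q y)) ∂μ := by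
          rw [tsum_fintype]
          exact Finset.sum_coe_sort net
            fun p => ∫⁻ y in C ∩ q ⁻¹' ball (p : E) (c * T), w y * ENNReal.ofReal (f (q y)) ∂μ
  calc ∫⁻ y in C, w y * ENNReal.ofReal (f (q y)) ∂μ
      ≤ ∑ p ∈ net, (2 * (δ / ENNReal.ofReal m)) *
        ∫⁻ x in closedBall p (2 * T) ∩ Gap ρ N i d m, S x ∂ν :=
          hcover.trans (Finset.sum_le_sum hball)
    _ = (2 * (δ / ENNReal.ofReal m)) *
        ∑ p ∈ net, ∫⁻ x in closedBall p (2 * T) ∩ Gap ρ N i d m, S x ∂ν := by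
          rw [Finset.mul_sum]
    _ ≤ (2 * (δ / ENNReal.ofReal m)) *
        (ENNReal.ofReal ((2 * (2 / c) + 1) ^ finrank ℝ E) * ∫⁻ x in univ, S x ∂ν) := by gcongr
    _ = cst E c * (δ / ENNReal.ofReal m) * ∫⁻ x, S x ∂ν := by
          rw [Measure.restrict_univ, cst]; ring
    _ = cst E c * (δ / ENNReal.ofReal m) *
        ∑ j ∈ Finset.Ico i (i + d), ∫⁻ x, ENNReal.ofReal (N j x) ∂ν := by
          rw [hS, lintegral_finset_sum _ fun j _ => (h.contN j).measurable.ennreal_ofReal]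

/-- **All classes of points.**  Each class is charged only to the levels of its window
`[lev a, lev a + dep a)`; the charges to one level must sum up to at most `κ`. -/
theorem classes_pts (h : ExOut Ω t₀ ρ N) (hq : Measurable q) {ι : Type*} {f : E → ℝ}
    (hf : ∀ i x, f x ≤ ρ i x) (lev dep : ι → ℕ) {m : ι → ℝ} (hm : ∀ a, 0 < m a) {c : ℝ}
    (hc : 0 < c) (hc1 : c ≤ 1) {δ : ι → ℝ≥0∞} {μ : ι → Measure X} {w : ι → X → ℝ≥0∞}
    {C : ι → Set X} (hCb : ∀ a, Bornology.IsBounded (q '' C a))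
    (hCΩ : ∀ a, ∀ z ∈ C a, closedBall (q z) (2 * (t₀ / 2 ^ lev a)) ⊆ Ω)
    (hC : ∀ a, ∀ z ∈ C a, ∫⁻ y in C a ∩ q ⁻¹' ball (q z) (c * (t₀ / 2 ^ lev a)), w a y ∂(μ a)
      ≤ δ a * ν (closedBall (q z) (2 * (t₀ / 2 ^ lev a)) ∩ Gap ρ N (lev a) (dep a) (m a)))
    {κ : ℝ≥0∞}
    (hκ : ∀ j, (∑' a, if lev a ≤ j ∧ j < lev a + dep a then δ a / ENNReal.ofReal (m a) else 0)
      ≤ κ) :
    ∑' a, ∫⁻ y in C a, w a y * ENNReal.ofReal (f (q y)) ∂(μ a)
      ≤ cst E c * κ * ∑' j, ∫⁻ x, ENNReal.ofReal (N j x) ∂ν := by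
  classical
  have h1 : ∀ a, ∫⁻ y in C a, w a y * ENNReal.ofReal (f (q y)) ∂(μ a)
      ≤ ∑' j, cst E c *
        (if lev a ≤ j ∧ j < lev a + dep a then δ a / ENNReal.ofReal (m a) else 0) *
        ∫⁻ x, ENNReal.ofReal (N j x) ∂ν := by
    intro a
    refine (one_class_pts h hq (hf (lev a)) (hm a) hc hc1 (hCb a) (hCΩ a) (hC a)).trans
      (le_of_eq ?_)
    rw [Finset.mul_sum, tsum_eq_sum (s := Finset.Ico (lev a) (lev a + dep a))]
    · refine Finset.sum_congr rfl fun j hj => ?_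
      rw [Finset.mem_Ico] at hj
      rw [if_pos hj]
    · intro j hj
      rw [Finset.mem_Ico] at hj
      rw [if_neg hj]
      simp
  calc ∑' a, ∫⁻ y in C a, w a y * ENNReal.ofReal (f (q y)) ∂(μ a)
      ≤ ∑' a, ∑' j, cst E c *
        (if lev a ≤ j ∧ j < lev a + dep a then δ a / ENNReal.ofReal (m a) else 0) *
        ∫⁻ x, ENNReal.ofReal (N j x) ∂ν := ENNReal.tsum_le_tsum h1
    _ = ∑' j, cst E c *
        (∑' a, if lev a ≤ j ∧ j < lev a + dep a then δ a / ENNReal.ofReal (m a) else 0) *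
        ∫⁻ x, ENNReal.ofReal (N j x) ∂ν := by
        rw [ENNReal.tsum_comm]
        refine tsum_congr fun j => ?_
        rw [ENNReal.tsum_mul_right, ENNReal.tsum_mul_left]
    _ ≤ ∑' j, cst E c * κ * ∫⁻ x, ENNReal.ofReal (N j x) ∂ν := by
        refine ENNReal.tsum_le_tsum fun j => ?_
        gcongr
        exact hκ j
    _ = cst E c * κ * ∑' j, ∫⁻ x, ENNReal.ofReal (N j x) ∂ν := ENNReal.tsum_mul_left

end one

/-- the negativity over all levels in terms of the sum of the `N j` -/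
lemma tsum_lintegral {ν : Measure E} {N : ℕ → E → ℝ} (hc : ∀ j, Continuous (N j)) :
    ∑' j, ∫⁻ x, ENNReal.ofReal (N j x) ∂ν = ∫⁻ x, ∑' j, ENNReal.ofReal (N j x) ∂ν :=
  (lintegral_tsum fun j => (hc j).measurable.ennreal_ofReal.aemeasurable).symm

/-- **Compensation, point version.**  `F₀ + S ≤ F∞` (the limit inequality of the exhaustion),
positivity `F∞ ≤ εA + Σ (classes)`, charges small: then `F₀ + S/2 ≤ εA`. -/
theorem comp_pts {Ω : Set E} {t₀ : ℝ} {ρ N : ℕ → E → ℝ} {ν : Measure E} {q : X → E}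
    (h : ExOut Ω t₀ ρ N) (hq : Measurable q) {ι : Type*} {f : E → ℝ}
    (hf : ∀ i x, f x ≤ ρ i x) {F₀ F₁ S εA : ℝ} (hS0 : 0 ≤ S) (hεA : 0 ≤ εA)
    (htot : F₀ + S ≤ F₁)
    (hS : ∑' j, ∫⁻ x, ENNReal.ofReal (N j x) ∂ν ≤ ENNReal.ofReal S)
    (lev dep : ι → ℕ) {m : ι → ℝ} (hm : ∀ a, 0 < m a) {c : ℝ}
    (hc : 0 < c) (hc1 : c ≤ 1) {δ : ι → ℝ≥0∞} {μ : ι → Measure X} {w : ι → X → ℝ≥0∞}
    {C : ι → Set X} (hCb : ∀ a, Bornology.IsBounded (q '' C a))
    (hCΩ : ∀ a, ∀ z ∈ C a, closedBall (q z) (2 * (t₀ / 2 ^ lev a)) ⊆ Ω)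
    (hC : ∀ a, ∀ z ∈ C a, ∫⁻ y in C a ∩ q ⁻¹' ball (q z) (c * (t₀ / 2 ^ lev a)), w a y ∂(μ a)
      ≤ δ a * ν (closedBall (q z) (2 * (t₀ / 2 ^ lev a)) ∩ Gap ρ N (lev a) (dep a) (m a)))
    {κ : ℝ≥0∞}
    (hκ : ∀ j, (∑' a, if lev a ≤ j ∧ j < lev a + dep a then δ a / ENNReal.ofReal (m a) else 0)
      ≤ κ) {θ : ℝ} (hθ : 0 ≤ θ) (hκ1 : cst E c * κ ≤ ENNReal.ofReal θ)
    (hpos : ENNReal.ofReal F₁ ≤ ENNReal.ofReal εA +
      ∑' a, ∫⁻ y in C a, w a y * ENNReal.ofReal (f (q y)) ∂(μ a)) :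
    F₀ + (1 - θ) * S ≤ εA := by
  have h1 := classes_pts h hq hf lev dep hm hc hc1 hCb hCΩ hC hκ
  have h2 : ∑' a, ∫⁻ y in C a, w a y * ENNReal.ofReal (f (q y)) ∂(μ a)
      ≤ ENNReal.ofReal (θ * S) := by
    refine h1.trans ?_
    rw [ENNReal.ofReal_mul hθ]
    gcongr
  have h3 : ENNReal.ofReal F₁ ≤ ENNReal.ofReal (εA + θ * S) := by
    rw [ENNReal.ofReal_add hεA (by positivity)]
    exact hpos.trans (by gcongr)
  have h4 : F₁ ≤ εA + θ * S := (ENNReal.ofReal_le_ofReal_iff (by positivity)).1 h3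
  nlinarith

end Vale.Agent.P214.COMP
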